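import Vale.Agent.P286E75.Un
import Vale.Agent.P286EI.L3

/-!
# The evaluation at the generators
-/

set_option linter.all false

namespace Vale.Agent.P286E75

open CategoryTheory Vale.Agent.P286 Vale.Agent.P286.St Vale.Agent.P286.H847 Vale.Agent.P286E
  Vale.Agent.P286.H710 Vale.Agent.P286EX Vale.Agent.P286EI

noncomputable section

section Red

variable {R R' B W ι ι' : Type} [CommRing R] [CommRing R'] [AddCommGroup B] [Module R B]
  [AddCommGroup W] [Module R' W] (φ : R →+* R') (b : Module.Basis ι R B)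
  (w : Module.Basis ι' R' W) (σ : ι ≃ ι') (π : B →+ W) (hs : ∀ r x, π (r • x) = φ r • π x)
  (hb : ∀ γ, π (b γ) = w (σ γ))

include hs hb

theorem red_repr (x : B) (γ : ι) : w.repr (π x) (σ γ) = φ (b.repr x γ) := by
  classical
  induction b.mem_span x using Submodule.span_induction with
  | mem x hx =>
    obtain ⟨δ, rfl⟩ := hx
    simp only [hb, Module.Basis.repr_self, Finsupp.single_apply, σ.apply_eq_iff_eq]
    split_ifs <;> simp
  | zero => simp
  | add x y _ _ hx hy => simp only [map_add, Finsupp.add_apply, hx, hy]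
  | smul r x _ hx => simp only [hs, map_smul, Finsupp.smul_apply, hx, smul_eq_mul, map_mul]

theorem red_sur (hφ : Function.Surjective φ) : Function.Surjective π := fun y => by
  induction w.mem_span y using Submodule.span_induction with
  | mem x hx =>
    obtain ⟨δ, rfl⟩ := hx
    exact ⟨b (σ.symm δ), by rw [hb, σ.apply_symm_apply]⟩
  | zero => exact ⟨0, map_zero π⟩
  | add x y _ _ hx hy =>
    obtain ⟨x, rfl⟩ := hx
    obtain ⟨y, rfl⟩ := hy
    exact ⟨x + y, map_add π x y⟩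
  | smul r x _ hx =>
    obtain ⟨x, rfl⟩ := hx
    obtain ⟨r, rfl⟩ := hφ r
    exact ⟨r • x, hs r x⟩

theorem red_ker {F : R} (hF : ∀ r, φ r = 0 ↔ F ∣ r) (x : B) : π x = 0 ↔ ∃ c, F • c = x := by
  constructor
  · intro h
    have h1 : ∀ γ, F ∣ b.repr x γ := fun γ => (hF _).1 (by
      rw [← red_repr φ b w σ π hs hb, h, map_zero, Finsupp.zero_apply])
    choose c hc using h1
    refine ⟨∑ γ ∈ (b.repr x).support, c γ • b γ, ?_⟩
    rw [Finset.smul_sum]
    conv_rhs => rw [← b.linearCombination_repr x, Finsupp.linearCombination_apply, Finsupp.sum]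
    exact Finset.sum_congr rfl fun γ _ => by rw [smul_smul, ← hc]
  · rintro ⟨c, rfl⟩
    rw [hs, (hF F).2 dvd_rfl, zero_smul]

end Red

theorem ad_wg {N : Type} [AddCommGroup N] [Module ℂ N] (a e : Fin 3) (x : L3 N) :
    L3.ad ℂ N a (L3.wg ℂ N e x) =
      L3.wg ℂ N e (L3.ad ℂ N a x) + ∑ c, eps a e c • L3.wg ℂ N c x := by
  fin_cases a <;> fin_cases e <;> refine L3.ext8 ?_ ?_ ?_ ?_ ?_ ?_ ?_ ?_ <;>
    simp [L3.ad_apply, L3.wg_apply, L3.cx_apply, Fin.sum_univ_three, eps]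

theorem ad_inl {N : Type} [AddCommGroup N] [Module ℂ N] (a : Fin 3) (x : N) :
    L3.ad ℂ N a (L3.inl ℂ N x) = 0 := by
  refine L3.ext8 ?_ ?_ ?_ ?_ ?_ ?_ ?_ ?_ <;> simp [L3.ad_apply, L3.inl_apply]

section Gen

variable {R A N V β : Type} [CommRing R] [CommRing A] [AddCommGroup N] [Module ℂ N] [Module R N]
  [AddCommGroup V] [Module ℂ V] [Module A V] {n : ℕ} (φ : R →+* A) (io : Fin 3 → V →ₗ[A] V)
  (pi : L3 N →ₗ[ℂ] (Fin n → V)) (wg : ∀ a x k, pi (L3.wg ℂ N a x) k = io a (pi x k))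
  (sm : ∀ (f : R) z k, pi (L3.inl ℂ N (f • z)) k = φ f • pi (L3.inl ℂ N z) k)

include wg sm

theorem g_smul (f : R) (x : L3 N) : pi (f • x) = φ f • pi x := by
  refine L3.ind ℂ (P := fun x => pi (f • x) = φ f • pi x) (fun z => ?_) (fun a x hx => ?_)
    (fun x y hx hy => ?_) x
  · exact (congrArg pi (map_smul (L3.inl R N) f z).symm).trans (funext (sm f z))
  · refine (congrArg pi (map_smul (L3.wg R N a) f x).symm).trans (funext fun k => ?_)
    refine (wg a _ k).trans ?_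
    rw [hx, Pi.smul_apply, Pi.smul_apply, map_smul, wg]
  · rw [smul_add, map_add, map_add, hx, hy, smul_add]

theorem g_sgl (e : Finset (Fin 3) → V) (he : ∀ a S, a ∉ S →
      io a (e S) = (-1 : A) ^ (S.filter (· < a)).card • e (insert a S)) (z : N) (k : Fin n)
    (h0 : pi (L3.inl ℂ N z) = Pi.single k (e ∅)) (S : Finset (Fin 3)) :
    pi (L3.sgl R S z) = Pi.single k (e S) := by
  induction S using Finset.induction_on with
  | empty => exact (congrArg pi (L3.sgl_empty _)).trans h0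
  | insert a S ha ih =>
    have e1 := L3.wg_sgl (R := R) a S z
    rw [if_neg ha] at e1
    have e3 : ∀ {A M : Type} [CommRing A] [AddCommGroup M] [Module A M] (n : ℕ) {x y : M},
        x = (-1 : A) ^ n • y → y = (-1 : A) ^ n • x := fun n x y e => by
      rw [e, smul_smul, ← mul_pow, neg_mul_neg, one_mul, one_pow, one_smul]
    rw [e3 _ e1, e3 _ (he a S ha), g_smul φ io pi wg sm, map_pow, map_neg, map_one,
      Pi.single_smul]
    refine congrArg _ (funext fun j => (wg a _ j).trans ?_)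
    rw [ih]
    exact Pi.apply_single (fun _ => io a) (fun _ => map_zero _) k _ j

omit wg sm in
theorem g_lie (κ : ℂ) (a : Fin 3) (jo : Fin 3 → V →ₗ[ℂ] V) (nt : V →ₗ[ℂ] V) (l : N →ₗ[ℂ] N)
    (c : Matrix (Fin n) (Fin n) ℂ) (w : ∀ a x k, pi (L3.wg ℂ N a x) k = jo a (pi x k))
    (hn : ∀ e p, nt (jo e p) = jo e (nt p) + ∑ c, (κ * eps a e c) • jo c p) (k : Fin n)
    (h0 : ∀ z, nt (pi (L3.inl ℂ N z) k) =
      pi (L3.inl ℂ N (l z)) k + ∑ j, c j k • pi (L3.inl ℂ N z) j) (x : L3 N) :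
    nt (pi x k) = pi (L3.map l x + κ • L3.ad ℂ N a x) k + ∑ j, c j k • pi x j := by
  refine L3.ind ℂ (P := fun x => nt (pi x k) =
    pi (L3.map l x + κ • L3.ad ℂ N a x) k + ∑ j, c j k • pi x j) (fun z => ?_) (fun e x hx => ?_)
    (fun x y hx hy => ?_) x
  · rw [ad_inl, smul_zero, add_zero, L3.map_inl]
    exact h0 z
  · rw [w, hn, hx, L3.map_wg, ad_wg]
    simp only [map_add, map_smul, map_sum, smul_add, Pi.add_apply, Pi.smul_apply,
      Finset.sum_apply, w, Finset.smul_sum, smul_smul]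
    abel
  · simp only [map_add, Pi.add_apply, smul_add, Finset.sum_add_distrib] at hx hy ⊢
    rw [hx, hy]
    abel

end Gen

variable {I : Type} [SmallCategory I] {D : CD I} {G : Grp} {K : GK G} {xd : XD D} {s : ℂ}
  {U : Rep K}

section Nat

variable (H : HG (K.gs D s)) (i : I)

/-- The natural action as a linear map. -/
def natL (a : Fin 3) : (H.K (Zo xd i)).M.V →ₗ[ℂ] (H.K (Zo xd i)).M.V :=
  actL _ (muV xd i K a) + (lieOp _ (H.i (Zo xd i) a)).restrictScalars ℂ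

theorem natL_apply (a : Fin 3) (p : (H.K (Zo xd i)).M.V) :
    natL H i a p = nat xd H i a p := rfl

/-- The ghosts as linear maps. -/
def iL (a : Fin 3) : (H.K (Zo xd i)).M.V →ₗ[ℂ] (H.K (Zo xd i)).M.V :=
  (H.i (Zo xd i) a).restrictScalars ℂ

theorem natL_i (a e : Fin 3) (p : (H.K (Zo xd i)).M.V) : natL H i a (iL H i e p) =
    iL H i e (natL H i a p) + ∑ c, (K.κ * eps a e c) • iL H i c p := by
  have h1 := H.i_act (Zo xd i) e (muV xd i K a) p
  have h2 := sub_eq_iff_eq_add'.1 (H.i_br (Zo xd i) a e p)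
  refine (congrArg₂ (· + ·) h1.symm h2).trans ?_
  rw [← add_assoc]
  exact congrArg (· + _) (map_add (H.i (Zo xd i) e) _ _).symm

end Nat

variable (P : PD0 K xd s U) (i : I) (N : Type) [AddCommGroup N] [Module ℂ N] [Module (OV D i) N]

/-- The evaluation at the generators. -/
structure PI where
  pi : L3 N →ₗ[ℂ] (Fin U.n → (P.P.K (Zo xd i)).M.V)
  b : Module.Basis (Fin U.n × (Fin 4 →₀ ℕ) × Fin U.n) (OV D i) N
  l : Fin 3 → N →ₗ[ℂ] N
  wg : ∀ a x k, pi (L3.wg ℂ N a x) k = P.P.i (Zo xd i) a (pi x k)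
  sm : ∀ (f : OV D i) z k, pi (L3.inl ℂ N (f • z)) k =
    (show RQ G s (Zo xd i) from zmk D i f) • pi (L3.inl ℂ N z) k
  bas : ∀ k β, pi (L3.inl ℂ N (b (k, β))) = Pi.single k (P.e (Zo xd i) (∅, β))
  vac : ∀ a z k, nat xd P.P i a (pi (L3.inl ℂ N z) k) =
    pi (L3.inl ℂ N (l a z)) k + ∑ j, U.dr a j k • pi (L3.inl ℂ N z) j

variable {P i N} (h : PI P i N)

/-- The reduction of the functions. -/
def zr (G : Grp) (s : ℂ) (xd : XD D) (i : I) : OV D i →+* RQ G s (Zo xd i) := (zmk D i).toRingHom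

theorem PI.smul (f : OV D i) (x : L3 N) : h.pi (f • x) = zr G s xd i f • h.pi x :=
  g_smul (zr G s xd i) (P.P.i (Zo xd i)) h.pi h.wg h.sm f x

theorem PI.sgl (S : Finset (Fin 3)) (k : Fin U.n) (β : (Fin 4 →₀ ℕ) × Fin U.n) :
    h.pi (L3.sgl (OV D i) S (h.b (k, β))) = Pi.single k (P.e (Zo xd i) (S, β)) :=
  g_sgl (zr G s xd i) (P.P.i (Zo xd i)) h.pi h.wg h.sm (fun S => P.e (Zo xd i) (S, β))
    (fun a S ha => P.i_ins (Zo xd i) a S β ha) _ k (h.bas k β) S

/-- The indices. -/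
def ixE (n : ℕ) : Finset (Fin 3) × Fin n × (Fin 4 →₀ ℕ) × Fin n ≃
    Σ _ : Fin n, Finset (Fin 3) × (Fin 4 →₀ ℕ) × Fin n where
  toFun x := ⟨x.2.1, x.1, x.2.2⟩
  invFun x := (x.2.1, x.1, x.2.2)
  left_inv _ := rfl
  right_inv _ := rfl

theorem PI.basis (γ : Finset (Fin 3) × Fin U.n × (Fin 4 →₀ ℕ) × Fin U.n) :
    h.pi.toAddMonoidHom (L3.bas h.b γ) =
      Pi.basis (fun _ : Fin U.n => P.e (Zo xd i)) (ixE U.n γ) :=
  (congrArg h.pi (L3.bas_apply h.b γ.1 γ.2)).trans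
    ((h.sgl γ.1 γ.2.1 γ.2.2).trans (Pi.basis_apply (fun _ : Fin U.n => P.e (Zo xd i)) (ixE U.n γ)).symm)

theorem PI.sur : Function.Surjective h.pi :=
  red_sur (zr G s xd i) (L3.bas h.b) _ (ixE U.n) h.pi.toAddMonoidHom h.smul h.basis
    Ideal.Quotient.mk_surjective

theorem PI.ker (x : L3 N) : h.pi x = 0 ↔ ∃ c, FF D i • c = x :=
  red_ker (zr G s xd i) (L3.bas h.b) _ (ixE U.n) h.pi.toAddMonoidHom h.smul h.basis
    (fun _ => Ideal.Quotient.eq_zero_iff_mem.trans Ideal.mem_span_singleton) x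

theorem PI.lie (a : Fin 3) (x : L3 N) (k : Fin U.n) : nat xd P.P i a (h.pi x k) =
    h.pi (L3.map (h.l a) x + K.κ • L3.ad ℂ N a x) k + ∑ j, U.dr a j k • h.pi x j :=
  g_lie h.pi K.κ a (iL P.P i) (natL P.P i a) (h.l a) (U.dr a) h.wg (natL_i P.P i a) k
    (fun z => h.vac a z k) x

theorem PI.pi_L (x : L3 N) (hx : LI P i (h.pi x)) (a : Fin 3) :
    h.pi (L3.map (h.l a) x + K.κ • L3.ad ℂ N a x) = 0 := funext fun k =>
  add_eq_right.1 ((h.lie a x k).symm.trans (hx a k))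

end

end Vale.Agent.P286E75
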