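import Vale.Agent.P286EK.Tw
import Vale.Agent.P286EX.Spec

/-!
# The homological part of the comparison of the endomorphisms with the invariant classes
-/

set_option linter.all false

namespace Vale.Agent.P286E75

open Vale.Agent.P286.H847 Vale.Agent.P286.H710 Vale.Agent.P286EK Vale.Agent.P286EX
open Vale.Agent.P286EK.TwA

noncomputable section

variable {A : DGA} {F : CZ A}

theorem prj_mul (F : CZ A) (P : Prj A.G) (n : ℤ) (c : A.R) :
    P.P n (F.x * c) = F.x * P.P n c := by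
  induction c using A.ind with
  | zero => simp
  | hom m x hx =>
    have h : F.x * x ∈ A.gr m := by simpa using A.mul_gr 0 m _ _ F.gr hx
    by_cases e : m = n
    · subst e
      rw [P.eq m _ h, P.eq m _ hx]
    · rw [P.ne m n e _ h, P.ne m n e _ hx, mul_zero]
  | add x y hx hy => rw [mul_add, map_add, map_add, hx, hy, mul_add]

theorem div_gr (F : CZ A) {n : ℤ} {x : A.R} (hx : x ∈ A.gr n) (h : ∃ c, x = F.x * c) :
    ∃ c ∈ A.gr n, x = F.x * c := by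
  obtain ⟨P⟩ := Prj.nonempty (M := A.G) A.int
  obtain ⟨c, rfl⟩ := h
  exact ⟨P.P n c, P.mem n c, (P.eq n _ hx).symm.trans (prj_mul F P n c)⟩

/-- The matrix with zero first row. -/
def low (F : CZ A) (c0 c1 : A.R) : (TwA F).R := TwA.of F !![0, 0; c0, c1]

theorem low00 (c0 c1 : A.R) : m (low F c0 c1) 0 0 = 0 := rfl
theorem low01 (c0 c1 : A.R) : m (low F c0 c1) 0 1 = 0 := rfl
theorem low10 (c0 c1 : A.R) : m (low F c0 c1) 1 0 = c0 := rfl
theorem low11 (c0 c1 : A.R) : m (low F c0 c1) 1 1 = c1 := rfl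

theorem low_mem {n : ℤ} {c0 c1 : A.R} (h0 : c0 ∈ A.gr (n + 1)) (h1 : c1 ∈ A.gr n) :
    low F c0 c1 ∈ (TwA F).gr n :=
  (mem4 n _).2 ⟨zero_mem _, zero_mem _, h0, h1⟩

theorem d_low0 (c0 c1 : A.R) : m ((TwA F).d (low F c0 c1)) 0 0 = F.x * c0 := by
  rw [d00, low00, low10, map_zero, zero_add]

theorem d_low1 (c0 c1 : A.R) : m ((TwA F).d (low F c0 c1)) 0 1 = F.x * c1 := by
  rw [d01, low00, low01, low11, map_zero, map_zero, zero_mul, zero_add, sub_zero]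

theorem zero_of_row (hR : ∀ c, F.x * c = 0 → c = 0) (a : (TwA F).R) (hd : (TwA F).d a = 0)
    (h0 : m a 0 0 = 0) (h1 : m a 0 1 = 0) : a = 0 := by
  have e0 := d00 a
  have e1 := d01 a
  rw [hd, h0, map_zero, zero_add] at e0
  rw [hd, h0, h1, map_zero, map_zero, zero_mul, zero_add, sub_zero] at e1
  exact ext4 h0 h1 (hR _ e0.symm) (hR _ e1.symm)

/-- The data of the comparison. -/
structure Cmp (F : CZ A) (M : GD) (E : M.V → Prop) where
  ev : (TwA F).R →ₗ[ℂ] M.V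
  ev_d : ∀ a, ev ((TwA F).d a) = M.d (ev a)
  ev_low : ∀ c0 c1, ev (low F c0 c1) = 0
  ker : ∀ a, ev a = 0 → (∃ c, m a 0 0 = F.x * c) ∧ ∃ c, m a 0 1 = F.x * c
  sur : ∀ n, ∀ p ∈ M.gr n, E p → ∃ a ∈ (TwA F).gr n, ev a = p
  reg : ∀ c, F.x * c = 0 → c = 0

variable {M : GD} {E : M.V → Prop}

theorem Cmp.red (C : Cmp F M E) {n : ℤ} {a : (TwA F).R} (ha : a ∈ (TwA F).gr n)
    (hd : (TwA F).d a = 0) (h : C.ev a = 0) :
    ∃ c0 c1, low F c0 c1 ∈ (TwA F).gr (n - 1) ∧ (TwA F).d (low F c0 c1) = a := by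
  obtain ⟨h0, h1⟩ := C.ker a h
  obtain ⟨g0, g1, -, -⟩ := (mem4 n a).1 ha
  obtain ⟨c0, k0, e0⟩ := div_gr F g0 h0
  obtain ⟨c1, k1, e1⟩ := div_gr F g1 h1
  refine ⟨c0, c1, low_mem (by rwa [sub_add_cancel]) k1, (sub_eq_zero.1 ?_).symm⟩
  refine zero_of_row C.reg _ (by rw [map_sub, hd, (TwA F).dd, sub_zero]) ?_ ?_
  · rw [m_sub, Matrix.sub_apply, d_low0, e0, sub_self]
  · rw [m_sub, Matrix.sub_apply, d_low1, e1, sub_self]

theorem Cmp.inj (C : Cmp F M E) {n : ℤ} {a : (TwA F).R} (ha : Cy (TwA F).G n a) {p : M.V}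
    (hp : p ∈ M.gr (n - 1)) (hE : E p) (h : M.d p = C.ev a) : Bd (TwA F).G n a := by
  obtain ⟨b, hb, rfl⟩ := C.sur _ p hp hE
  have hb' : (TwA F).d b ∈ (TwA F).gr n := by simpa using (TwA F).dgr _ b hb
  obtain ⟨c0, c1, k, e⟩ := C.red (a := a - (TwA F).d b) (sub_mem ha.1 hb')
    (by rw [map_sub, (TwA F).dd, sub_zero]; exact ha.2) (by rw [map_sub, C.ev_d, h, sub_self])
  refine ⟨b + low F c0 c1, add_mem hb k, ?_⟩
  change (TwA F).d _ = a
  rw [map_add, e, add_sub_cancel]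

theorem Cmp.onto (C : Cmp F M E) {n : ℤ} {p : M.V} (hp : Cy M n p) (hE : E p) :
    ∃ a, Cy (TwA F).G n a ∧ C.ev a = p := by
  obtain ⟨b, hb, rfl⟩ := C.sur _ p hp.1 hE
  obtain ⟨c0, c1, k, e⟩ := C.red ((TwA F).dgr _ b hb) ((TwA F).dd b) ((C.ev_d b).trans hp.2)
  rw [add_sub_cancel_right] at k
  refine ⟨b - low F c0 c1, ⟨sub_mem hb k, ?_⟩, by rw [map_sub, C.ev_low, sub_zero]⟩
  change (TwA F).d _ = 0
  rw [map_sub, e, sub_self]

end

end Vale.Agent.P286E75
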