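import Vale.Agent.P286ES.Gen

/-!
# Projection onto the invariants of a locally finite module
-/

set_option linter.all false

namespace Vale.Agent.P286E75

open Module Polynomial Complex Vale.Agent.P286ES

variable {M : Type*} [AddCommGroup M] [Module ℂ M]

theorem alg_of (A : End ℂ M) (W : Submodule ℂ M) [FiniteDimensional ℂ W] (hW : ∀ x ∈ W, A x ∈ W)
    {x : M} (hx : x ∈ W) : ∃ q : ℂ[X], q ≠ 0 ∧ aeval A q x = 0 := by
  have h := LinearMap.isIntegral (A.restrict hW)
  refine ⟨minpoly ℂ (A.restrict hW), minpoly.ne_zero h, ?_⟩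
  have e : ∀ q : ℂ[X], (aeval (A.restrict hW) q ⟨x, hx⟩ : M) = aeval A q x := fun q => by
    induction q using Polynomial.induction_on' with
    | add p q hp hq => simp only [map_add, LinearMap.add_apply, Submodule.coe_add, hp, hq]
    | monomial n c =>
      rw [aeval_monomial, aeval_monomial, Module.End.pow_restrict]
      rfl
  rw [← e, minpoly.aeval]
  rfl

theorem fit (A : End ℂ M) {P : M → Prop} (h : ∀ (c : ℂ) x, P x → P (x - c • A x)) (d : ℕ) :
    ∀ (q : ℂ[X]) (n : ℕ) (x : M), q ≠ 0 → q.natDegree = d → P x → (A ^ n) (aeval A q x) = 0 →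
      ∃ y, P y ∧ ∃ n, (A ^ n) y = 0 := by
  induction d with
  | zero =>
    intro q n x hq hd hx e
    rw [eq_C_of_natDegree_eq_zero hd] at e hq
    rw [aeval_C, Module.algebraMap_end_apply, map_smul] at e
    exact ⟨x, hx, n, smul_cancel (fun h => hq (by rw [h, map_zero])) e⟩
  | succ d ih =>
    intro q n x hq hd hx e
    obtain ⟨r, hr⟩ := IsAlgClosed.exists_root q (by
      rw [degree_eq_natDegree hq, hd]; exact_mod_cast Nat.succ_ne_zero d)
    obtain ⟨q', rfl⟩ := dvd_iff_isRoot.2 hr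
    have hq' : q' ≠ 0 := right_ne_zero_of_mul hq
    have hd' : q'.natDegree = d := by
      rw [natDegree_mul (X_sub_C_ne_zero r) hq', natDegree_X_sub_C] at hd
      omega
    by_cases h0 : r = 0
    · refine ih q' (n + 1) x hq' hd' hx ?_
      rw [h0, map_zero, sub_zero, map_mul, aeval_X] at e
      rwa [pow_succ]
    · refine ih q' n _ hq' hd' (h r⁻¹ x hx) ?_
      have e1 : x - r⁻¹ • A x = (-r⁻¹) • aeval A (X - C r) x := by
        rw [map_sub, aeval_X, aeval_C, LinearMap.sub_apply, Module.algebraMap_end_apply, smul_sub,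
          smul_smul, neg_mul, inv_mul_cancel₀ h0]
        module
      rw [mul_comm, map_mul] at e
      rw [e1, map_smul, map_smul]
      exact smul_eq_zero_of_right _ e

theorem fit' (A : End ℂ M) (W : Submodule ℂ M) [FiniteDimensional ℂ W] (hW : ∀ x ∈ W, A x ∈ W)
    {P : M → Prop} (h : ∀ (c : ℂ) x, P x → P (x - c • A x)) {x : M} (hx : x ∈ W) (hP : P x) :
    ∃ y, P y ∧ ∃ n, (A ^ n) y = 0 := by
  obtain ⟨q, hq, e⟩ := alg_of A W hW hx
  exact fit A h _ q 0 x hq rfl hP e

variable {E F H : End ℂ M}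

/-- The Casimir operator. -/
noncomputable def cas (E F H : End ℂ M) : End ℂ M := F * E + (4⁻¹ : ℂ) • (H * H) + (2⁻¹ : ℂ) • H

theorem cas_apply (x : M) :
    cas E F H x = F (E x) + (4⁻¹ : ℂ) • H (H x) + (2⁻¹ : ℂ) • H x := rfl

theorem cas_E (s : Sl E F H) : cas E F H * E = E * cas E F H := LinearMap.ext fun x => by
  simp only [Module.End.mul_apply, cas_apply, map_add, map_smul, s.he, s.ef]
  module

theorem cas_F (s : Sl E F H) : cas E F H * F = F * cas E F H := LinearMap.ext fun x => by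
  simp only [Module.End.mul_apply, cas_apply, map_add, map_smul, map_sub, s.hf, s.ef]
  module

theorem cas_H (s : Sl E F H) : cas E F H * H = H * cas E F H := LinearMap.ext fun x => by
  simp only [Module.End.mul_apply, cas_apply, map_add, map_smul, map_sub, s.hf, s.he]
  module

theorem sl_swap (s : Sl E F H) : Sl F E (-H) :=
  ⟨fun x => by simp only [LinearMap.neg_apply, map_neg, s.hf]; module,
    fun x => by simp only [LinearMap.neg_apply, map_neg, s.he]; module,
    fun x => by simp only [LinearMap.neg_apply, s.ef]; module⟩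

theorem cas_swap (s : Sl E F H) : cas F E (-H) = cas E F H := LinearMap.ext fun x => by
  simp only [cas_apply, LinearMap.neg_apply, map_neg, s.ef]
  module

theorem lf_swap (l : Lf E F H) : Lf F E (-H) := fun m => by
  obtain ⟨W, h1, h2, h3⟩ := l m
  exact ⟨W, h1, h2, fun x hx => ⟨(h3 x hx).2.1, (h3 x hx).1, neg_mem (h3 x hx).2.2⟩⟩

/-- The vector is killed by a power of the operator. -/
def Nil (A : End ℂ M) (x : M) : Prop := ∃ n, (A ^ n) x = 0

theorem Nil.comm {A B : End ℂ M} (c : A * B = B * A) {x : M} (h : Nil A x) : Nil A (B x) := by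
  obtain ⟨n, h⟩ := h
  refine ⟨n, ?_⟩
  rw [← Module.End.mul_apply, (Commute.pow_left c n).eq, Module.End.mul_apply, h, map_zero]

theorem Nil.sub {A : End ℂ M} {x y : M} (h : Nil A x) (k : Nil A y) (c : ℂ) :
    Nil A (x - c • y) := by
  obtain ⟨n, h⟩ := h
  obtain ⟨m, k⟩ := k
  refine ⟨n + m, ?_⟩
  rw [map_sub, map_smul]
  conv_lhs => rw [add_comm, pow_add, Module.End.mul_apply, h, ← pow_add, add_comm, pow_add,
    Module.End.mul_apply, k]
  simp

theorem Nil.eig {A : End ℂ M} {x : M} (h : Nil A x) {c : ℂ} (e : A x = c • x) (hc : c ≠ 0) :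
    x = 0 := by
  obtain ⟨n, h⟩ := h
  have : ∀ n, (A ^ n) x = c ^ n • x := fun n => by
    induction n with
    | zero => simp
    | succ n ih => rw [pow_succ, Module.End.mul_apply, e, map_smul, ih, smul_smul, pow_succ']
  exact smul_cancel (pow_ne_zero n hc) ((this n).symm.trans h)

theorem wt_le (s : Sl E F H) (l : Lf E F H) {μ : ℂ} {x : M} (h : Nil (cas E F H) x)
    (e : H x = μ • x) (hx : x ≠ 0) : ∃ k : ℕ, μ + 2 * k = 0 := by
  classical
  obtain ⟨W, _, h2, h3⟩ := l x
  have hv : ∀ k : ℕ, (E ^ k) x ∈ W ∧ H ((E ^ k) x) = (μ + 2 * k) • (E ^ k) x ∧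
      Nil (cas E F H) ((E ^ k) x) := fun k => by
    induction k with
    | zero => exact ⟨h2, by simpa using e, h⟩
    | succ k ih =>
      rw [pow_succ', Module.End.mul_apply]
      refine ⟨(h3 _ ih.1).1, ?_, ih.2.2.comm (cas_E s)⟩
      rw [s.he, ih.2.1, map_smul, ← add_smul]
      congr 1
      push_cast
      ring
  have ex := fin_eig H W (fun k => (E ^ k) x) (fun k => (hv k).1) μ 2 two_ne_zero
    fun k => (hv k).2.1
  obtain ⟨k, hk⟩ : ∃ k, Nat.find ex = k + 1 := Nat.exists_eq_succ_of_ne_zero fun h0 => by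
    have := Nat.find_spec ex
    rw [h0] at this
    exact hx this
  have e0 : E ((E ^ k) x) = 0 := by
    have := Nat.find_spec ex
    rwa [hk, pow_succ'] at this
  have e1 : (E ^ k) x ≠ 0 := Nat.find_min ex (by omega)
  obtain ⟨n, hn⟩ := Hw.nat s l ⟨e0, (hv k).2.1⟩ e1
  refine ⟨k, ?_⟩
  by_contra h0
  refine e1 ((hv k).2.2.eig (c := 4⁻¹ * (n * (n + (1 + 1 : ℕ)))) ?_ ?_)
  · rw [cas_apply, e0, (hv k).2.1, map_smul, (hv k).2.1, hn, map_zero]
    push_cast
    module
  · exact mul_ne_zero (by norm_num) (mul_ne_zero (hn ▸ h0) (nat_ne n 1))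

theorem wt_zero (s : Sl E F H) (l : Lf E F H) {μ : ℂ} {x : M} (h : Nil (cas E F H) x)
    (e : H x = μ • x) (hμ : μ ≠ 0) : x = 0 := by
  by_contra hx
  obtain ⟨k, hk⟩ := wt_le s l h e hx
  obtain ⟨j, hj⟩ := wt_le (μ := -μ) (sl_swap s) (lf_swap l) (by rwa [cas_swap s])
    (by rw [LinearMap.neg_apply, e, neg_smul]) hx
  have h1 : ((k + j : ℕ) : ℂ) = 0 := by
    push_cast
    linear_combination (2⁻¹ : ℂ) * (hk + hj)
  have h2 : k = 0 := by
    have := Nat.cast_eq_zero.1 h1
    omega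
  rw [h2, Nat.cast_zero, mul_zero, add_zero] at hk
  exact hμ hk

theorem nil_H (s : Sl E F H) (l : Lf E F H) {x : M} (h : Nil (cas E F H) x) : Nil H x := by
  obtain ⟨W, _, h2, h3⟩ := l x
  obtain ⟨y, ⟨-, hy⟩, k⟩ := fit' H W (fun x hx => (h3 x hx).2.2)
    (P := fun y => Nil (cas E F H) y ∧ (Nil H y → Nil H x)) (fun c y hy => by
      refine ⟨hy.1.sub (hy.1.comm (cas_H s)) c, fun ⟨n, hn⟩ => hy.2 ⟨n, ?_⟩⟩
      rw [map_sub, map_smul, ← Module.End.mul_apply, ← pow_succ, pow_succ',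
        Module.End.mul_apply, sub_eq_zero] at hn
      by_cases hc : c = 0
      · rwa [hc, zero_smul] at hn
      · refine wt_zero (μ := c⁻¹) s l (hy.1.comm (Commute.pow_right (cas_H s) n).eq) ?_
          (inv_ne_zero hc)
        conv_rhs => rw [hn, smul_smul, inv_mul_cancel₀ hc, one_smul]) h2 ⟨h, id⟩
  exact hy k

theorem nil_E (s : Sl E F H) (l : Lf E F H) {x : M} (h : Nil (cas E F H) x) : E x = 0 := by
  obtain ⟨n, hn⟩ := nil_H s l h
  induction n generalizing x with
  | zero => exact (congrArg E hn).trans (map_zero E)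
  | succ n ih =>
    have e := ih (h.comm (cas_H s)) (by rwa [pow_succ] at hn)
    exact wt_zero s l (h.comm (cas_E s)) (by rw [s.he, e, zero_add]) two_ne_zero

/-- **Projection onto the invariants.** -/
theorem inv_sl (s : Sl E F H) (l : Lf E F H) {P : M → Prop}
    (h : ∀ (c : ℂ) x, P x → P (x - c • cas E F H x)) {x : M} (hx : P x) :
    ∃ y, P y ∧ E y = 0 ∧ H y = 0 := by
  obtain ⟨W, _, h2, h3⟩ := l x
  obtain ⟨y, hy, k⟩ := fit' (cas E F H) W (fun x hx => add_mem (add_mem (h3 _ (h3 x hx).1).2.1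
    (W.smul_mem _ (h3 _ (h3 x hx).2.2).2.2)) (W.smul_mem _ (h3 x hx).2.2)) h h2 hx
  have e1 := nil_E s l k
  have e2 := nil_E (sl_swap s) (lf_swap l) (x := y) (by rwa [cas_swap s])
  have e3 := s.ef y
  rw [e1, e2, map_zero, map_zero, zero_add] at e3
  exact ⟨y, hy, e1, e3.symm⟩

variable {L : Fin 3 → End ℂ M}

/-- **Lifting of invariants.** -/
theorem inv_lift (hL : Vec L L) (l : LF L) (N : Submodule ℂ M) (hN : ∀ a, ∀ x ∈ N, L a x ∈ N)
    {x : M} (hx : ∀ a, L a x ∈ N) : ∃ y, y - x ∈ N ∧ ∀ a, L a y = 0 := by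
  have k : ∀ x, (∀ a, L a x ∈ N) → oE L x ∈ N ∧ oF L x ∈ N ∧ oH L x ∈ N := fun x h =>
    ⟨N.smul_mem _ (add_mem (h 0) (N.smul_mem _ (h 1))),
      N.smul_mem _ (sub_mem (h 0) (N.smul_mem _ (h 1))), N.smul_mem _ (h 2)⟩
  obtain ⟨y, hy, e1, e2⟩ := inv_sl hL.sl l.lf (P := fun y => y - x ∈ N) (fun c y hy => by
    have h1 := k y fun a => by simpa using add_mem (hN a _ hy) (hx a)
    rw [sub_right_comm]
    exact sub_mem hy (N.smul_mem _ (add_mem (add_mem (k _ fun a => hN a _ h1.1).2.1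
      (N.smul_mem _ (k _ fun a => hN a _ h1.2.2).2.2)) (N.smul_mem _ h1.2.2))))
    (x := x) (by rw [sub_self]; exact zero_mem _)
  exact ⟨y, hy, HW.inv hL l ⟨e1, e2.trans (zero_smul ℂ y).symm⟩⟩

end Vale.Agent.P286E75
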