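import Vale.Agent.P286E75.Ub
import Vale.Agent.P286ER2.Tr
import Vale.Agent.P286EL.Bb

/-!
# The symbols on the chart
-/

set_option linter.all false

namespace Vale.Agent.P286E75

open CategoryTheory Vale.Agent.P286 Vale.Agent.P286.St Vale.Agent.P286E Vale.Agent.P286EX
  Vale.Agent.P286EI Vale.Agent.P286EL

noncomputable section

theorem g_act {A R T : Type} [Ring A] [Algebra ℂ A] [CommRing R] [Algebra ℂ R] [AddCommGroup T]
    [Module ℂ T] [Module R T] [IsScalarTower ℂ R T] (ev : A →ₗ[ℂ] T) (y : Fin 3 → A)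
    (d : Option (Fin 3) → A) (Y : Fin 3 → R) (hy : ∀ c q, ev (y c * q) = Y c • ev q) (κ : ℂ)
    (a : Fin 3) (c : Option (Fin 3) → R) (h0 : c none = 0)
    (h1 : ∀ b, c (some b) = κ • ∑ e, eps a b e • Y e) (q : A) :
    ∑ k, c k • ev (d k * q) = ev (mu κ y (fun b => d (some b)) a * q) := by
  rw [Fintype.sum_option, h0, zero_smul, zero_add, mu_eq]
  simp only [h1, Finset.sum_mul, map_sum, smul_mul_assoc, map_smul, mul_assoc, hy,
    Finset.smul_sum, Finset.sum_smul, smul_assoc, mul_smul]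

variable {I : Type} [SmallCategory I] {D : CD I} {G : Grp} (K : GK G) (xd : XD D) (s : ℂ) (i : I)

theorem ev0_of (f : OV D i) (q : DV xd i) : Tr.ev0 xd G s (Zo xd i) (DO.of _ f * q) =
    zr G s xd i f • Tr.ev0 xd G s (Zo xd i) q :=
  (Tr.ev_of_mul (wd_cm _) (Tr.p0 G s (Zo xd i)) f q).trans
    (congrArg (fun z : RQ G s (Zo xd i) => z • Tr.ev0 xd G s (Zo xd i) q)
      (AlgHom.congr_fun (zmk_eq i) f).symm)

/-- The basis of the differential operators. -/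
def bD : Module.Basis (Fin 4 →₀ ℕ) (OV D i) (DV xd i) :=
  (DO.bas (wd_cm (xd.pd i))).reindex (Finsupp.equivCongrLeft (finSuccEquiv 3).symm)

theorem bD_apply (m : Fin 4 →₀ ℕ) : bD xd i m = Tr.pm _ (Tr.ex m) :=
  (Module.Basis.reindex_apply _ _ m).trans (DO.bas_apply _ _)

theorem ev0_bD (m : Fin 4 →₀ ℕ) :
    Tr.ev0 xd G s (Zo xd i) (bD xd i m) = Tr.bs G s (Zo xd i) m :=
  (congrArg _ (bD_apply xd i m)).trans
    ((Tr.ev_pm (wd_cm _) (Tr.p0 G s (Zo xd i)) _).trans (Tr.bs_apply _ m).symm)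

theorem act_ev0 (a : Fin 3) (q : DV xd i) :
    Tr.act xd G s (Zo xd i) (muV xd i K a) (Tr.ev0 xd G s (Zo xd i) q) =
      Tr.ev0 xd G s (Zo xd i) (muW (xd.pd i) K.κ a * q) :=
  (Tr.act_ev0 xd (Zo xd i) _ q).trans (g_act (Tr.ev0 xd G s (Zo xd i)) (DW.y (xd.pd i))
    (DO.D _) (qY G s (Zo xd i)) (fun c q => ev0_of xd s i (MvPolynomial.X c) q) K.κ a _
    (Tr.c0_of xd (Zo xd i) _ fun z => (muV_x xd i K a z).trans (zero_mul _).symm)
    (fun b => map_muV xd i K (AlgHom.id ℂ _) a b) q)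

theorem mu_eq' (a : Fin 3) : Tr.mu K.κ (xd.pd i) a = muW (xd.pd i) K.κ a := (mu_eq _ _ _ a).symm

theorem ll_ev0 (a : Fin 3) (q : DV xd i) :
    Tr.ll xd K s (Zo xd i) a (Tr.ev0 xd G s (Zo xd i) q) =
      -Tr.ev0 xd G s (Zo xd i) (q * muW (xd.pd i) K.κ a) :=
  (Tr.ll_apply xd K (Zo xd i) a _).trans (congrArg Neg.neg
    ((Tr.ra0_ev xd (Zo xd i) _ q).trans (congrArg (fun z => Tr.ev0 xd G s (Zo xd i) (q * z))
      (mu_eq' K xd i a))))

variable {K xd s}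

/-- The symbols, for a family identified with the transfer modules. -/
def evOf {L : SL (K.gs D s)} (B : SB xd L) (φ : Tr.TX G s (Zo xd i) →ₗ[ℂ] L.M (Zo xd i))
    (h1 : ∀ (z : RQ G s (Zo xd i)) p, φ (z • p) = z • φ p)
    (h2 : ∀ m, φ (Tr.bs G s (Zo xd i) m) = B.bs (Zo xd i) m)
    (h3 : ∀ v p, (L.C (Zo xd i)).act v (φ p) = φ (Tr.act xd G s (Zo xd i) v p))
    (h4 : ∀ a p, L.l (Zo xd i) a (φ p) = φ (Tr.ll xd K s (Zo xd i) a p)) : EV B i where
  mu := muW (xd.pd i) K.κ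
  br := (wy_dw _).mu_br K.κ
  lf := muW_lf _ _
  mu_F := muW_FF _ K.κ
  ev := φ.comp (Tr.ev0 xd G s (Zo xd i))
  ev_of f q := (congrArg φ (ev0_of xd s i f q)).trans (h1 _ _)
  b := bD xd i
  ev_b m := (congrArg φ (ev0_bD xd s i m)).trans (h2 m)
  act a q := (h3 _ _).trans (congrArg φ (act_ev0 K xd s i a q))
  l a q := (h4 _ _).trans ((congrArg φ (ll_ev0 K xd s i a q)).trans (map_neg φ _))

end

end Vale.Agent.P286E75
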