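import Vale.Agent.P286E75.R0
import Vale.Agent.P286E8.Fin
import Vale.Agent.P286EX7.Br1

/-!
# The generator from the right action of the algebra of the invariants
-/

set_option linter.all false

namespace Vale.Agent.P286E75

open CategoryTheory Vale.Agent.P286 Vale.Agent.P286.St Vale.Agent.P286E Vale.Agent.P286EX
  Vale.Agent.P286EI Vale.Agent.P286EL

noncomputable section

theorem inv_iff {M : Type} [Ring M] [Algebra ℂ M] (κ : ℂ) {m n : Fin 3 → M} (h : ∀ a, m a = -n a)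
    (z : L3 M) : Inv κ m z ↔ ∀ a, gl κ (fun a => adj (n a)) a z = 0 := by
  refine forall_congr' fun a => ?_
  have e : L3.map (adj (n a)) z =
      L3.map (L3.rm M (m a)) z - L3.map (LinearMap.mulLeft ℂ (m a)) z := by
    refine L3.ext8 ?_ ?_ ?_ ?_ ?_ ?_ ?_ ?_ <;>
      simp [L3.map_apply, adj_apply, h, sub_eq_add_neg, add_comm]
  rw [lieL_apply, L3.inl_mul, gl_apply, e, sub_add_eq_add_sub, sub_eq_zero]

variable {I : Type} [SmallCategory I] {D : CD I} {G : Grp} (K : GK G) (xd : XD D) (s : ℂ)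

/-- The symbols. -/
def evS (i : I) : EV (Tr.sb xd K s) i :=
  evOf i (Tr.sb xd K s) LinearMap.id (fun _ _ => rfl) (fun _ => rfl) (fun _ _ => rfl)
    fun _ _ => rfl

theorem inl_FF (i : I) (n : ℕ) (x : L3 (MV xd i n)) :
    L3.inl ℂ _ (Matrix.diagonal fun _ => DO.of _ (FF D i)) * x = FF D i • x := by
  rw [L3.inl_mul, ← map_fM]
  exact congrArg (fun f : MV xd i n →ₗ[ℂ] MV xd i n => L3.map f x)
    (LinearMap.ext fun z => Matrix.ext fun k l => Matrix.diagonal_mul _ z k l)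

variable {K xd s} {U : Rep K} (R : Tr.RU xd s U)

/-- The algebra acts through the invariants. -/
structure IA (i : I) where
  m : Fin 3 → MV xd i U.n
  hm : ∀ a, m a = -MU (muW (xd.pd i) K.κ) U.dr a
  io : (R.A.A i).R →ₗ[ℂ] L3 (MV xd i U.n)
  io_mul : ∀ x y, io (x * y) = io x * io y
  io_inj : Function.Injective io
  io_inv : ∀ x, Inv K.κ m (io x)
  io_sur : ∀ b, Inv K.κ m b → ∃ x, io x = b
  io_F : io (R.T.F i).x = L3.inl ℂ _ (Matrix.diagonal fun _ => DO.of _ (FF D i))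
  ρ : MV xd i U.n →ₗ[ℂ] (Fin U.n → Tr.TX G s (Zo xd i)) →ₗ[RQ G s (Zo xd i)]
    (Fin U.n → Tr.TX G s (Zo xd i))
  ρ_eq : ∀ z p l, ρ z p l = ∑ k, Tr.ra0 xd G s (Zo xd i) (z k l) (p k)
  ra : ∀ x p, R.ra (Zo xd i) x p = L3.ra ρ (io x) p

variable {R} {i : I}

theorem IA.row (h : IA R i) (z : MV xd i U.n) (k : Fin U.n) :
    h.ρ z (Pi.single k (Tr.bs G s (Zo xd i) 0)) = (evS K xd s i).row U k z := funext fun l => by
  refine (h.ρ_eq z _ l).trans ((Finset.sum_eq_single k (fun j _ e => ?_)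
    fun e => absurd (Finset.mem_univ k) e).trans ?_)
  · exact (congrArg _ (Pi.single_eq_of_ne e _)).trans (map_zero _)
  · refine (congrArg _ ((Pi.single_eq_same k _).trans ?_)).trans (Tr.ra0_unit xd (Zo xd i) (z k l))
    exact (ev0_bD xd s i 0).symm.trans ((congrArg _ ((bD_apply xd i 0).trans
      ((congrArg _ (Finsupp.equivMapDomain_zero)).trans Tr.pm_zero))).trans (Tr.ev_one _ _))

/-- The comparison. -/
def IA.iv (h : IA R i) : IV R (evS K xd s i) where
  io := h.io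
  io_inj := h.io_inj
  io_L a x := (inv_iff K.κ h.hm _).1 (h.io_inv x) a
  io_sur b hb := h.io_sur b ((inv_iff K.κ h.hm _).2 hb)
  io_F x := (h.io_mul _ x).trans ((congrArg (· * h.io x) h.io_F).trans (inl_FF xd i _ _))
  ra_v x k := (h.ra x _).trans ((L3.ra_vac h.ρ (h.io x) _).trans
    (L3.ext (h.row _ k) (funext fun _ => h.row _ k) (funext fun _ => h.row _ k) (h.row _ k)))

/-- **The generator.** -/
def pdA (R : Tr.RU xd s U) (h : ∀ i, IA R i) : PD K xd s U :=
  pdOf R (evS K xd s) fun i => (h i).iv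

end

end Vale.Agent.P286E75
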