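import Vale.Agent.P286E75.R0
import Vale.Agent.P286E8.Fin

/-!
# The generator from the right action of the algebra of the invariants
-/

set_option linter.all false

namespace Vale.Agent.P286E75

open CategoryTheory Vale.Agent.P286 Vale.Agent.P286.St Vale.Agent.P286E Vale.Agent.P286EX
  Vale.Agent.P286EI Vale.Agent.P286EL

noncomputable section

/-- The invariant elements. -/
def Iz {M : Type} [Ring M] [Algebra ℂ M] (κ : ℂ) (m : Fin 3 → M) (z : L3 M) : Prop :=
  ∀ c, L3.map (LinearMap.mulRight ℂ (m c)) z + κ • L3.ad ℂ M c z =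
    L3.map (LinearMap.mulLeft ℂ (m c)) z

theorem iz_iff {M : Type} [Ring M] [Algebra ℂ M] (κ : ℂ) {m n : Fin 3 → M} (h : ∀ a, m a = -n a)
    (z : L3 M) : Iz κ m z ↔ ∀ a, gl κ (fun a => adj (n a)) a z = 0 := by
  refine forall_congr' fun a => ?_
  have e : L3.map (adj (n a)) z =
      L3.map (LinearMap.mulRight ℂ (m a)) z - L3.map (LinearMap.mulLeft ℂ (m a)) z := by
    refine L3.ext8 ?_ ?_ ?_ ?_ ?_ ?_ ?_ ?_ <;>
      simp [L3.map_apply, adj_apply, h, sub_eq_add_neg, add_comm]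
  rw [gl_apply, e, sub_add_eq_add_sub, sub_eq_zero]

variable {I : Type} [SmallCategory I] {D : CD I} {G : Grp} (K : GK G) (xd : XD D) (s : ℂ)

/-- The symbols. -/
def evT (i : I) : EV (Tr.sb xd K s) i :=
  evOf i (Tr.sb xd K s) LinearMap.id (fun _ _ => rfl) (fun _ => rfl) (fun _ _ => rfl)
    fun _ _ => rfl

theorem map_FF (i : I) (n : ℕ) (x : L3 (MV xd i n)) :
    L3.map (LinearMap.mulLeft ℂ (Matrix.diagonal fun _ => DO.of _ (FF D i) : MV xd i n)) x =
      FF D i • x :=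
  (congrArg (fun f : MV xd i n →ₗ[ℂ] MV xd i n => L3.map f x)
    (LinearMap.ext fun z => Matrix.ext fun k l => Matrix.diagonal_mul _ z k l)).trans (map_fM x)

variable {K xd s} {U : Rep K} (R : Tr.RU xd s U)

/-- The algebra acts through the invariants. -/
structure IB (i : I) where
  m : Fin 3 → MV xd i U.n
  hm : ∀ a, m a = -MU (muW (xd.pd i) K.κ) U.dr a
  io : (R.A.A i).R →ₗ[ℂ] L3 (MV xd i U.n)
  io_inj : Function.Injective io
  io_inv : ∀ x, Iz K.κ m (io x)
  io_sur : ∀ b, Iz K.κ m b → ∃ x, io x = b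
  io_F : ∀ x, io ((R.T.F i).x * x) =
    L3.map (LinearMap.mulLeft ℂ (Matrix.diagonal fun _ => DO.of _ (FF D i) : MV xd i U.n)) (io x)
  ρ : MV xd i U.n → (Fin U.n → Tr.TX G s (Zo xd i)) → Fin U.n → Tr.TX G s (Zo xd i)
  ρ_eq : ∀ z p l, ρ z p l = ∑ k, Tr.ra0 xd G s (Zo xd i) (z k l) (p k)
  ra : ∀ x (p : Fin U.n → Tr.TX G s (Zo xd i)), R.ra (Zo xd i) x (L3.inl (RQ G s (Zo xd i)) _ p) =
    (⟨ρ (io x).s p, fun a => ρ ((io x).v a) p, fun a => ρ ((io x).w a) p, ρ (io x).t p⟩ : L3 _)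

variable {R} {i : I}

theorem IB.row (h : IB R i) (z : MV xd i U.n) (k : Fin U.n) :
    h.ρ z (Pi.single k (Tr.bs G s (Zo xd i) 0)) = (evT K xd s i).row U k z := funext fun l => by
  refine (h.ρ_eq z _ l).trans ((Finset.sum_eq_single k (fun j _ e => ?_)
    fun e => absurd (Finset.mem_univ k) e).trans ?_)
  · exact (congrArg _ (Pi.single_eq_of_ne e _)).trans (map_zero _)
  · refine (congrArg _ ((Pi.single_eq_same k _).trans ?_)).trans (Tr.ra0_unit xd (Zo xd i) (z k l))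
    exact (ev0_bD xd s i 0).symm.trans ((congrArg _ ((bD_apply xd i 0).trans
      ((congrArg _ (Finsupp.equivMapDomain_zero)).trans Tr.pm_zero))).trans (Tr.ev_one _ _))

/-- The comparison. -/
def IB.iv (h : IB R i) : IV R (evT K xd s i) where
  io := h.io
  io_inj := h.io_inj
  io_L a x := (iz_iff K.κ h.hm _).1 (h.io_inv x) a
  io_sur b hb := h.io_sur b ((iz_iff K.κ h.hm _).2 hb)
  io_F x := (h.io_F x).trans (map_FF xd i _ _)
  ra_v x k := (h.ra x _).trans
    (L3.ext (h.row _ k) (funext fun _ => h.row _ k) (funext fun _ => h.row _ k) (h.row _ k))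

/-- **The generator.** -/
def pdB (R : Tr.RU xd s U) (h : ∀ i, IB R i) : PD K xd s U :=
  pdOf R (evT K xd s) fun i => (h i).iv

end

end Vale.Agent.P286E75
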