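import Vale.Agent.P286EX6.Vf
import Vale.Agent.P286EX.Spec

/-!
# Equivariant families are invariant under the Lie algebra
-/

set_option linter.all false

namespace Vale.Agent.P286E75

open CategoryTheory Matrix TensorProduct Vale.Agent.P286 Vale.Agent.P286.St Vale.Agent.P286E
  Vale.Agent.P286EC Vale.Agent.P286EX

noncomputable section

section Gen

variable {T : TSite} {S : GS T} (H : HG S) {X Y : T.C} (φ : X ⟶ Y)

theorem t_lie (b : Fin 3) (x : (H.K X).M.V) :
    (H.t φ).f (lieOp _ (H.i X b) x) = ∑ a, S.ad φ a b • lieOp _ (H.i Y a) ((H.t φ).f x) := by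
  rw [lieOp_apply, map_add, (H.t φ).comm, H.t_i, H.t_i, (H.t φ).comm, map_sum,
    ← Finset.sum_add_distrib]
  exact Finset.sum_congr rfl fun a _ => by rw [lieOp_apply, smul_add, (H.K Y).d_smul]

theorem act_t0 (w : Derivation ℂ (T.R Y) (T.R Y)) (hw : ∀ a, w (T.f φ a) = 0) (hd : T.dl φ = 1)
    (hth : ∀ a, S.th φ a = 0) (x : (H.K X).M.V) : (H.K Y).C.act w ((H.t φ).f x) = 0 := by
  have h := H.t_act φ w 0 (fun k => k.elim0) (fun k => k.elim0) (fun a => by simp [hw]) x
  simpa [hd, hth] using h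

theorem act_t1 (w : Derivation ℂ (T.R Y) (T.R Y)) (v : Derivation ℂ (T.R X) (T.R X))
    (hw : ∀ a, w (T.f φ a) = T.f φ (v a)) (hd : T.dl φ = 1) (b : Fin 3)
    (hth : ∀ a, w.liftKaehlerDifferential (S.th φ a) = S.ad φ a b) (x : (H.K X).M.V) :
    (H.K Y).C.act w ((H.t φ).f x) =
      (H.t φ).f ((H.K X).C.act v x + lieOp _ (H.i X b) x) := by
  have h := H.t_act φ w 1 (fun _ => 1) (fun _ => v) (fun a => by simp [hw]) x
  rw [map_add, t_lie]
  simpa [hd, hth] using h

theorem act_sum {n : ℕ} (w : Derivation ℂ (T.R Y) (T.R Y)) (r : Fin n → T.R Y)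
    (y : Fin n → (H.K Y).M.V) (h : ∀ l, (H.K Y).C.act w (y l) = 0) :
    (H.K Y).C.act w (∑ l, r l • y l) = ∑ l, w (r l) • y l := by
  rw [← actL_apply, map_sum]
  exact Finset.sum_congr rfl fun l _ => by
    rw [actL_apply, (H.K Y).C.leibniz, h, smul_zero, add_zero]

theorem sum_dr {B M : Type} [CommRing B] [Algebra ℂ B] [AddCommGroup M] [Module B M] [Module ℂ M]
    [IsScalarTower ℂ B M] {n : ℕ} (r : Matrix (Fin n) (Fin n) B) (c : Matrix (Fin n) (Fin n) ℂ)
    (y : Fin n → M) (k : Fin n) :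
    ∑ l, (r * c.map (algebraMap ℂ B)) l k • y l = ∑ j, c j k • ∑ l, r l j • y l := by
  simp only [Matrix.mul_apply, Finset.sum_smul, Finset.smul_sum, Matrix.map_apply]
  rw [Finset.sum_comm]
  refine Finset.sum_congr rfl fun j _ => Finset.sum_congr rfl fun l _ => ?_
  rw [mul_comm, mul_smul, algebraMap_smul]

end Gen

variable {I : Type} [SmallCategory I] {D : CD I} {G : Grp} {s : ℂ} {K : GK G} (xd : XD D)
  (U : Rep K) (H : HG (K.gs D s)) (i : I)

/-- The natural action of the Lie algebra on the sections over the chart. -/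
def nat (a : Fin 3) (p : (H.K (Zo xd i)).M.V) : (H.K (Zo xd i)).M.V :=
  (H.K (Zo xd i)).C.act (muV xd i K a) p + lieOp _ (H.i (Zo xd i) a) p

/-- The left invariant vector fields on the product of the chart with the group. -/
def wL (K : GK G) (s : ℂ) (a : Fin 3) :
    Derivation ℂ (RQ G s (cop K (Zo xd i))) (RQ G s (cop K (Zo xd i))) := lT (OZ D i) (K.L a)

theorem dl_one {X Y : QO D} (u : Ar G s X Y) (h : X.i = Y.i) (e : QM.α u = eqToHom h) :
    (QS D G s).dl u = 1 := by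
  obtain ⟨i, A, x, y, sq⟩ := X
  obtain ⟨j, B, x', y', sq'⟩ := Y
  obtain rfl : i = j := h
  exact (congrArg (fun β => x' (D.r β)) e).trans ((congrArg x' (D.r_id i)).trans (map_one x'))

theorem wL_g (a : Fin 3) :
    (gZ D i K).map (lT (OZ D i) (K.L a)) = G.ht (fun b => adm G (gZ D i K) b a) * gZ D i K := by
  rw [ht_eq, ← K.ad_eq (gZ_pt D i K), gZ, GK.lT_g, K.L_g, map_mul', bt_map]

theorem act_inl (a : Fin 3) (x : (H.K (Zo xd i)).M.V) :
    (H.K (cop K (Zo xd i))).C.act (wL xd i K s a) ((H.t (inl K s (Zo xd i))).f x) = 0 :=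
  act_t0 H (inl K s (Zo xd i)) _
    (fun z => (lT_tmul (K.L a) z 1).trans (by rw [Derivation.map_one_eq_zero, tmul_zero]; rfl))
    (dl_one _ rfl rfl) (fun b => thm_one b) x

theorem act_inr (a : Fin 3) (x : (H.K (Zo xd i)).M.V) :
    (H.K (cop K (Zo xd i))).C.act (wL xd i K s a) ((H.t (inr K xd s (Zo xd i))).f x) =
      (H.t (inr K xd s (Zo xd i))).f (nat xd H i a x) :=
  act_t1 H (inr K xd s (Zo xd i)) _ _ (lT_actZ xd i K s a) (dl_one _ rfl rfl) a
    (K.thm_of (gZ_pt D i K) _ _ (wL_g i a)) x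

/-- The matrix of the representation over the product of the chart with the group. -/
def uZ (D : CD I) (i : I) : Matrix (Fin U.n) (Fin U.n) (OZ D i ⊗[ℂ] K.O.R) :=
  U.at (gZ D i K) (gZ_pt D i K)

theorem at_g : uZ U D i = U.r.map (cR K (OZ D i)) :=
  Matrix.ext fun p q => (AlgHom.congr_fun (K.eq_ev (cR K (OZ D i))) (U.r p q)).symm

theorem wL_at (a : Fin 3) : (uZ U D i).map (lT (OZ D i) (K.L a)) =
    uZ U D i * cm _ (U.dr a) := by
  rw [at_g, GK.lT_g, U.L_r, map_mul']
  exact congrArg (_ * ·) (Matrix.ext fun p q => (cR K (OZ D i)).commutes _)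

theorem wL_at' (a : Fin 3) (l k : Fin U.n) :
    wL xd i K s a (U.at (qh (inr K xd s (Zo xd i))) (qpt _) l k) =
      (U.at (qh (inr K xd s (Zo xd i))) (qpt _) * (U.dr a).map (algebraMap ℂ _) :
        Matrix _ _ (RQ G s (cop K (Zo xd i)))) l k :=
  congrFun (congrFun (wL_at U i a) l) k

theorem fold_inr (x : (H.K (Zo xd i)).M.V) :
    (H.t (fold K s (Zo xd i))).f ((H.t (inr K xd s (Zo xd i))).f x) = x :=
  (H.t_comp _ _ x).symm.trans ((congrArg (fun u => (H.t u).f x)
    ((inr_fold K xd _).trans (zA_Zo K xd i))).trans (H.t_id _ x))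

/-- **Equivariant families are invariant under the Lie algebra.** -/
theorem nat_of_eqv (p : Fin U.n → (H.K (Zo xd i)).M.V) (h : ∀ k, eqv xd U H.fa i p k = 0)
    (a : Fin 3) (k : Fin U.n) : nat xd H i a (p k) = ∑ j, U.dr a j k • p j := by
  have e : ∀ k, (H.t (inr K xd s (Zo xd i))).f (p k) =
      ∑ l, U.at (qh (inr K xd s (Zo xd i))) (qpt _) l k • (H.t (inl K s (Zo xd i))).f (p l) :=
    fun k => sub_eq_zero.1 (h k)
  have e1 := act_inr xd H i a (p k)
  rw [e k, act_sum H _ _ _ fun l => act_inl xd H i a (p l)] at e1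
  simp only [wL_at'] at e1
  rw [sum_dr] at e1
  simp only [← e] at e1
  have e3 := congrArg (H.t (fold K s (Zo xd i))).f e1
  rw [fold_inr, map_sum] at e3
  exact e3.symm.trans (Finset.sum_congr rfl fun j _ => by rw [map_smul, fold_inr])

end

end Vale.Agent.P286E75
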