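import Vale.Agent.P286E75.Ev
import Vale.Agent.P286E8.Hb

/-!
# The generator from the right action and the description of the invariants
-/

set_option linter.all false

namespace Vale.Agent.P286E75

open CategoryTheory Vale.Agent.P286 Vale.Agent.P286.St Vale.Agent.P286E Vale.Agent.P286EX
  Vale.Agent.P286EI Vale.Agent.P286EL

noncomputable section

variable {I : Type} [SmallCategory I] {D : CD I} {G : Grp} {K : GK G} {xd : XD D} {s : ℂ}
  {U : Rep K} {L : SL (K.gs D s)} {B : SB xd L}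
  {c : ∀ X, Gl.CE (K.gs D s).κ ((SB.LU L U).l X)} (R : R0 B U c) {i : I} (E : EV B i)

/-- The algebra is the algebra of the invariants. -/
structure IV where
  io : (R.A.A i).R →ₗ[ℂ] L3 (MV xd i U.n)
  io_inj : Function.Injective io
  io_L : ∀ a x, E.lB U a (io x) = 0
  io_sur : ∀ b, (∀ a, E.lB U a b = 0) → ∃ x, io x = b
  io_F : ∀ x, io ((R.T.F i).x * x) = FF D i • io x
  ra_v : ∀ x k, R.ra (Zo xd i) x (L3.inl (RQ G s (Zo xd i)) _
    (SB.sg1 L U (Zo xd i) k (B.bs (Zo xd i) 0))) = L3.map (E.row U k) (io x)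

variable {R E}

/-- The comparison. -/
def IV.toIO (h : IV R E) : IO E R.pd0 where
  W := (SB.LU L U).vi c
  he := B.V_he U c (Zo xd i)
  pi := LinearMap.pi fun k => L3.map (E.row U k)
  pi_wg a x k := L3.map_wg (E.row U k) a x
  pi_inl z k := L3.map_inl (E.row U k) z
  io := h.io
  io_inj := h.io_inj
  io_L := h.io_L
  io_sur := h.io_sur
  io_F := h.io_F
  pi_io x k := (h.ra_v x k).symm.trans (congrArg _ (B.V_e U c (Zo xd i) 0 k).symm)

theorem IV.u0 (h : IV R E) : U0 R.pd0 i := h.toIO.u0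

/-- **The generator.** -/
def pdOf (R : R0 B U c) (E : ∀ i, EV B i) (h : ∀ i, IV R (E i)) : PD K xd s U :=
  R.pd0.pd (unInj fun i => (h i).u0) (unSur fun i => (h i).u0)

theorem lB_iff (a : Fin 3) (b : L3 (MV xd i U.n)) :
    E.lB U a b = 0 ↔ LB K.κ (MU E.mu U.dr) a b = 0 := (LB_eq_zero K.κ_ne).symm

end

end Vale.Agent.P286E75
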