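import Vale.Agent.P286E75.Pi
import Vale.Agent.P286E8.Sb
import Vale.Agent.P286EL.Evk

/-!
# The invariants of the matrices of differential operators with ghosts
-/

set_option linter.all false

namespace Vale.Agent.P286E75

open CategoryTheory Matrix Vale.Agent.P286 Vale.Agent.P286.St Vale.Agent.P286.H847 Vale.Agent.P286E
  Vale.Agent.P286.H710 Vale.Agent.P286EX Vale.Agent.P286EI Vale.Agent.P286EL Vale.Agent.P286ES

noncomputable section

section Br

variable {M : Type} [AddCommGroup M] [Module ℂ M] {κ : ℂ}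

/-- The commutation relations. -/
def Br (κ : ℂ) (L : Fin 3 → Module.End ℂ M) : Prop :=
  ∀ a b x, L a (L b x) - L b (L a x) = ∑ c, (κ * eps a b c) • L c x

theorem Br.vec {L : Fin 3 → Module.End ℂ M} (h : Br κ L) (hκ : κ ≠ 0) :
    Vec (κ⁻¹ • L) (κ⁻¹ • L) := by
  have e : ∀ a b x, (κ⁻¹ • L) a ((κ⁻¹ • L) b x) =
      (κ⁻¹ • L) b ((κ⁻¹ • L) a x) + ∑ c, eps a b c • (κ⁻¹ • L) c x := fun a b x => by
    simp only [Pi.smul_apply, LinearMap.smul_apply, map_smul, sub_eq_iff_eq_add'.1 (h a b x),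
      smul_add, Finset.smul_sum, smul_smul, inv_mul_cancel_left₀ hκ, mul_comm κ⁻¹ (eps a b _)]
  refine ⟨fun _ _ => rfl, fun a x => (e a _ x).trans (congrArg _ ?_), fun a x =>
    (e a _ x).trans ((congrArg _ ?_).trans (sub_eq_add_neg _ _).symm)⟩ <;>
  fin_cases a <;> simp [Fin.sum_univ_three, eps]

theorem ad_ad (a b : Fin 3) (x : L3 M) : L3.ad ℂ M a (L3.ad ℂ M b x) -
    L3.ad ℂ M b (L3.ad ℂ M a x) = ∑ c, eps a b c • L3.ad ℂ M c x := by
  fin_cases a <;> fin_cases b <;> refine L3.ext8 ?_ ?_ ?_ ?_ ?_ ?_ ?_ ?_ <;>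
    simp [L3.ad_apply, L3.cx_apply, Fin.sum_univ_three, eps]

/-- The action on the ghosts. -/
def gl (κ : ℂ) (L : Fin 3 → Module.End ℂ M) (a : Fin 3) : Module.End ℂ (L3 M) :=
  L3.map (L a) + κ • L3.ad ℂ M a

theorem gl_apply (L : Fin 3 → Module.End ℂ M) (a : Fin 3) (x : L3 M) :
    gl κ L a x = L3.map (L a) x + κ • L3.ad ℂ M a x := rfl

theorem Br.gl {L : Fin 3 → Module.End ℂ M} (h : Br κ L) : Br κ (gl κ L) := fun a b x => by
  have e : L3.map (L a) (L3.map (L b) x) - L3.map (L b) (L3.map (L a) x) =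
      ∑ c, (κ * eps a b c) • L3.map (L c) x := by
    simp only [Fin.sum_univ_three]
    refine L3.ext8 ?_ ?_ ?_ ?_ ?_ ?_ ?_ ?_ <;>
      exact (h a b _).trans (Fin.sum_univ_three _)
  have e2 := congrArg (fun y => κ • κ • y) (ad_ad a b x)
  simp only [smul_sub, Finset.smul_sum, smul_smul] at e2
  simp only [gl_apply, map_add, map_smul, L3.map_ad, smul_add, Finset.sum_add_distrib, ← e,
    smul_smul, mul_comm (κ * eps a b _) κ, ← e2]
  abel

theorem gl_map {L : Fin 3 → Module.End ℂ M} (f : M →ₗ[ℂ] M) (h : ∀ a x, L a (f x) = f (L a x))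
    (a : Fin 3) (x : L3 M) : gl κ L a (L3.map f x) = L3.map f (gl κ L a x) := by
  rw [gl_apply, gl_apply, map_add, map_smul, L3.map_ad]
  refine congrArg (· + _) (L3.ext8 ?_ ?_ ?_ ?_ ?_ ?_ ?_ ?_) <;> exact h a _

theorem map_inj {f : M →ₗ[ℂ] M} (h : Function.Injective f) :
    Function.Injective (L3.map f : L3 M →ₗ[ℂ] L3 M) := fun x y e =>
  L3.ext (h (congrArg L3.s e)) (funext fun a => h (congrFun (congrArg L3.v e) a))
    (funext fun a => h (congrFun (congrArg L3.w e) a)) (h (congrArg L3.t e))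

variable {A : Type} [Ring A] [Algebra ℂ A]

theorem br_adj {m : Fin 3 → A} (h : ∀ a b, m a * m b - m b * m a = ∑ c, (κ * eps a b c) • m c) :
    Br κ fun a => adj (m a) := fun a b x => by
  have e : adj (m a) (adj (m b) x) - adj (m b) (adj (m a) x) =
      (m a * m b - m b * m a) * x - x * (m a * m b - m b * m a) := by
    simp only [adj_apply]
    noncomm_ring
  refine e.trans ?_
  simp only [h, adj_apply, Finset.sum_mul, Finset.mul_sum, smul_mul_assoc, mul_smul_comm, smul_sub,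
    Finset.sum_sub_distrib]

variable {n : ℕ}

/-- The moment map on the matrices. -/
def nm (μ : Fin 3 → A) (r : Fin 3 → Matrix (Fin n) (Fin n) ℂ) (a : Fin 3) :
    Matrix (Fin n) (Fin n) A := Matrix.scalar _ (μ a) + (-(r a)ᵀ).map (algebraMap ℂ A)

variable {μ : Fin 3 → A} {r : Fin 3 → Matrix (Fin n) (Fin n) ℂ}

theorem nm_mul (a : Fin 3) (z : Matrix (Fin n) (Fin n) A) (k l : Fin n) :
    (nm μ r a * z) k l = μ a * z k l - ∑ j, r a j k • z j l := by
  rw [nm, Matrix.add_mul, Matrix.add_apply, Matrix.scalar_apply, Matrix.diagonal_mul]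
  simp [Matrix.mul_apply, Algebra.smul_def, sub_eq_add_neg]

theorem mul_nm (a : Fin 3) (z : Matrix (Fin n) (Fin n) A) (k l : Fin n) :
    (z * nm μ r a) k l = z k l * μ a - ∑ j, r a l j • z k j := by
  rw [nm, Matrix.mul_add, Matrix.add_apply, Matrix.scalar_apply, Matrix.mul_diagonal]
  simp [Matrix.mul_apply, Algebra.smul_def, sub_eq_add_neg, Algebra.commutes]

theorem nm_br (h : ∀ a b, μ a * μ b - μ b * μ a = ∑ c, (κ * eps a b c) • μ c)
    (h' : ∀ a b, r a * r b - r b * r a = ∑ c, (κ * eps a b c) • r c) (a b : Fin 3) :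
    nm μ r a * nm μ r b - nm μ r b * nm μ r a = ∑ c, (κ * eps a b c) • nm μ r c := by
  obtain ⟨φ, hφ⟩ : ∃ φ : Matrix (Fin n) (Fin n) ℂ →ₐ[ℂ] Matrix (Fin n) (Fin n) A,
    ∀ m, φ m = m.map (algebraMap ℂ A) := ⟨(Algebra.ofId ℂ A).mapMatrix, fun _ => rfl⟩
  obtain ⟨ψ, hψ⟩ : ∃ ψ : A →ₐ[ℂ] Matrix (Fin n) (Fin n) A, ∀ m, ψ m = Matrix.scalar _ m :=
    ⟨Matrix.scalarAlgHom _ ℂ, fun _ => rfl⟩
  have c : ∀ m x, φ m * ψ x = ψ x * φ m := fun m x => Matrix.ext fun k l => by
    simp [hφ, hψ, Algebra.commutes]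
  have e1 := congrArg ψ (h a b)
  have e2 := congrArg (fun m => φ (-mᵀ)) (h' a b)
  simp only [map_sub, map_mul, map_sum, map_smul, transpose_sub, transpose_mul, transpose_sum,
    transpose_smul, map_neg, ← Finset.sum_neg_distrib, ← smul_neg] at e1 e2
  simp only [nm, ← hφ, ← hψ, smul_add, Finset.sum_add_distrib, map_neg, ← e1, ← e2, add_mul,
    mul_add, neg_mul, mul_neg, c]
  abel

theorem g_vac {T : Type} [AddCommGroup T] [Module ℂ T] (ev : A →ₗ[ℂ] T) (a : Fin 3)
    (z : Matrix (Fin n) (Fin n) A) (k l : Fin n) :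
    ev (μ a * z k l) + (-ev (z k l * μ a) + ∑ j, r a l j • ev (z k j)) =
      ev (adj (nm μ r a) z k l) + ∑ j, r a j k • ev (z j l) := by
  simp only [adj_apply, Matrix.sub_apply, nm_mul, mul_nm, map_sub, map_sum, map_smul]
  abel

end Br

variable {I : Type} [SmallCategory I] {D : CD I} {G : Grp} {K : GK G} {xd : XD D} {s : ℂ}
  {U : Rep K}

/-- The differential operators on the ambient space of the chart. -/
abbrev DV (xd : XD D) (i : I) : Type := DW (Fin 3) (xd.pd i)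

/-- The matrices of differential operators. -/
abbrev MV (xd : XD D) (i : I) (n : ℕ) : Type := Matrix (Fin n) (Fin n) (DV xd i)

/-- The symbols on the chart. -/
structure EV {L : SL (K.gs D s)} (B : SB xd L) (i : I) where
  mu : Fin 3 → DV xd i
  br : ∀ a b, mu a * mu b - mu b * mu a = ∑ c, (K.κ * eps a b c) • mu c
  lf : LF fun a => adj (mu a)
  mu_F : ∀ a, mu a * DO.of _ (FF D i) = DO.of _ (FF D i) * mu a
  ev : DV xd i →ₗ[ℂ] L.M (Zo xd i)
  ev_of : ∀ f q, ev (DO.of _ f * q) = zr G s xd i f • ev q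
  b : Module.Basis (Fin 4 →₀ ℕ) (OV D i) (DV xd i)
  ev_b : ∀ m, ev (b m) = B.bs (Zo xd i) m
  act : ∀ a q, (L.C (Zo xd i)).act (muV xd i K a) (ev q) = ev (mu a * q)
  l : ∀ a q, L.l (Zo xd i) a (ev q) = -ev (q * mu a)

variable {L : SL (K.gs D s)} {B : SB xd L} {i : I} (E : EV B i)

variable (U)

/-- The action of the Lie algebra. -/
def EV.lB : Fin 3 → Module.End ℂ (L3 (MV xd i U.n)) := gl K.κ fun a => adj (nm E.mu U.dr a)

/-- The symbols of a row. -/
def EV.row (k : Fin U.n) : MV xd i U.n →ₗ[ℂ] (SB.LU L U).M (Zo xd i) :=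
  LinearMap.pi fun l => E.ev.comp (Matrix.entryLinearMap ℂ _ k l)

theorem EV.row_apply (k l : Fin U.n) (z : MV xd i U.n) : E.row U k z l = E.ev (z k l) := rfl

/-- The basis of the matrices. -/
def EV.bM : Module.Basis (Fin U.n × (Fin 4 →₀ ℕ) × Fin U.n) (OV D i) (MV xd i U.n) :=
  (E.b.matrix (Fin U.n) (Fin U.n)).reindex ((Equiv.refl _).prodCongr (Equiv.prodComm _ _))

theorem EV.bM_apply (k l : Fin U.n) (m : Fin 4 →₀ ℕ) :
    E.bM U (k, m, l) = Matrix.single k l (E.b m) :=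
  (Module.Basis.reindex_apply _ _ _).trans (Module.Basis.matrix_apply E.b k l m)

theorem EV.row_bM (k j l : Fin U.n) (m : Fin 4 →₀ ℕ) : E.row U j (E.bM U (k, m, l)) =
    if j = k then B.bU U (Zo xd i) (m, l) else 0 := funext fun p => by
  rw [EV.row_apply, EV.bM_apply, SB.bU_apply]
  by_cases h : j = k
  · subst h
    rw [if_pos rfl, SB.sg1_apply]
    by_cases h' : p = l
    · subst h'
      rw [if_pos rfl, Matrix.single_apply_same, E.ev_b]
    · rw [if_neg h', Matrix.single_apply_of_col_ne _ _ (Ne.symm h'), map_zero]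
  · rw [if_neg h, Matrix.single_apply_of_row_ne (Ne.symm h), map_zero]
    rfl

theorem EV.row_nat (a : Fin 3) (z : MV xd i U.n) (k : Fin U.n) :
    ((SB.LU L U).C (Zo xd i)).act (muV xd i K a) (E.row U k z) +
      (SB.LU L U).l (Zo xd i) a (E.row U k z) =
    E.row U k (adj (nm E.mu U.dr a) z) + ∑ j, U.dr a j k • E.row U j z := funext fun l =>
  (congrArg₂ (· + ·) (E.act a (z k l)) ((L.rep_l (U.rs D s) (Zo xd i) a _ l).trans
    (congrArg (· + _) (E.l a (z k l))))).trans ((g_vac E.ev a z k l).trans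
      (congrArg (_ + ·) (Finset.sum_apply (M := fun _ => L.M (Zo xd i)) l Finset.univ
        fun j => U.dr a j k • E.row U j z).symm))

variable {U} (P : PD0 K xd s U)

/-- The comparison of the algebra with the invariants. -/
structure IO where
  W : VI (SB.LU L U) P.P
  he : ∀ β, P.e (Zo xd i) (∅, β) = W.ι (Zo xd i) (B.bU U (Zo xd i) β)
  pi : L3 (MV xd i U.n) →ₗ[ℂ] (Fin U.n → (P.P.K (Zo xd i)).M.V)
  pi_wg : ∀ a x k, pi (L3.wg ℂ _ a x) k = P.P.i (Zo xd i) a (pi x k)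
  pi_inl : ∀ z k, pi (L3.inl ℂ _ z) k = W.ι (Zo xd i) (E.row U k z)
  io : (P.A.A i).R →ₗ[ℂ] L3 (MV xd i U.n)
  io_inj : Function.Injective io
  io_L : ∀ a x, E.lB U a (io x) = 0
  io_sur : ∀ b, (∀ a, E.lB U a b = 0) → ∃ x, io x = b
  io_F : ∀ x, io ((P.T.F i).x * x) = FF D i • io x
  pi_io : ∀ x k, pi (io x) k = P.ra (Zo xd i) x (P.e (Zo xd i) (∅, 0, k))

variable {E P} (h : IO E P)

/-- The vacuum as a linear map. -/
def IO.ι : (SB.LU L U).M (Zo xd i) →ₗ[ℂ] (P.P.K (Zo xd i)).M.V :=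
  (h.W.ι (Zo xd i)).restrictScalars ℂ

/-- The evaluation. -/
def IO.toPI : PI P i (MV xd i U.n) where
  pi := h.pi
  b := E.bM U
  l a := adj (nm E.mu U.dr a)
  wg := h.pi_wg
  sm f z k := (h.pi_inl _ k).trans ((congrArg (h.W.ι (Zo xd i))
    (funext fun l => E.ev_of f (z k l))).trans ((map_smul (h.W.ι (Zo xd i)) (zr G s xd i f)
      (E.row U k z)).trans (congrArg _ (h.pi_inl z k).symm)))
  bas k β := funext fun j => (h.pi_inl _ j).trans
    ((congrArg (h.W.ι (Zo xd i)) (E.row_bM U k j β.2 β.1)).trans (by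
      by_cases e : j = k
      · subst e
        exact (congrArg _ (if_pos rfl)).trans ((h.he β).symm.trans
          (Pi.single_eq_same (M := fun _ => (P.P.K (Zo xd i)).M.V) j _).symm)
      · exact (congrArg _ (if_neg e)).trans ((map_zero _).trans
          (Pi.single_eq_of_ne (M := fun _ => (P.P.K (Zo xd i)).M.V) e _).symm)))
  vac a z k := by
    refine (congrArg (nat xd P.P i a) (h.pi_inl z k)).trans ((congrArg₂ (· + ·)
      (h.W.act _ _ _) (h.W.lie _ a _)).trans ((map_add h.ι _ _).symm.trans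
        ((congrArg h.ι (E.row_nat U a z k)).trans ((map_add h.ι _ _).trans ?_))))
    exact congrArg₂ (· + ·) (h.pi_inl _ k).symm ((map_sum h.ι _ _).trans
      (Finset.sum_congr rfl fun j _ => (map_smul h.ι _ _).trans
        (congrArg _ (h.pi_inl z j).symm)))

/-- The multiplication with the equation. -/
def fM (xd : XD D) (i : I) (n : ℕ) : MV xd i n →ₗ[ℂ] MV xd i n :=
  (LinearMap.mulLeft ℂ (DO.of _ (FF D i))).mapMatrix

theorem fM_apply {n : ℕ} (z : MV xd i n) (k l : Fin n) :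
    fM xd i n z k l = DO.of _ (FF D i) * z k l := rfl

theorem map_fM {n : ℕ} (x : L3 (MV xd i n)) : L3.map (fM xd i n) x = FF D i • x := rfl

theorem fM_inj (n : ℕ) : Function.Injective (fM xd i n) :=
  (injective_iff_map_eq_zero _).2 fun z hz => Matrix.ext fun k l =>
    FF_dw D i _ _ (congrFun (congrFun hz k) l)

theorem EV.fM_adj (a : Fin 3) (z : MV xd i U.n) :
    adj (nm E.mu U.dr a) (fM xd i U.n z) = fM xd i U.n (adj (nm E.mu U.dr a) z) :=
  Matrix.ext fun k l => by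
    simp only [adj_apply, Matrix.sub_apply, nm_mul, mul_nm, fM_apply, mul_sub, Finset.mul_sum,
      mul_smul_comm, ← mul_assoc, E.mu_F]

/-- The data of the comparison. -/
def IO.ub : UB P i where
  B := L3 (MV xd i U.n)
  L := K.κ⁻¹ • E.lB U
  vec := (br_adj (nm_br E.br U.dr_br)).gl.vec K.κ_ne
  lf := lf_smul (lf_L3 (lf_mat E.mu E.lf fun a => -(U.dr a)ᵀ) K.κ) _
  io := h.io
  io_inj := h.io_inj
  io_L a x := (congrArg (K.κ⁻¹ • ·) (h.io_L a x)).trans (smul_zero _)
  io_sur b hb := h.io_sur b fun a => smul_cancel (inv_ne_zero K.κ_ne) (hb a)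
  fm := L3.map (fM xd i U.n)
  fm_inj := map_inj (fM_inj _)
  fm_L a b := (congrArg (K.κ⁻¹ • ·) (gl_map _ E.fM_adj a b)).trans (map_smul _ _ _).symm
  io_F := h.io_F
  pi := h.pi
  pi_sur := h.toPI.sur
  pi_ker := h.toPI.ker
  pi_io := h.pi_io
  pi_L b hb a := (map_smul h.pi _ _).trans
    ((congrArg (K.κ⁻¹ • ·) (h.toPI.pi_L b hb a)).trans (smul_zero _))

/-- **The algebra modulo the equation is the space of the invariant families.** -/
theorem IO.u0 (h : IO E P) : U0 P i := h.ub.u0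

end

end Vale.Agent.P286E75
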