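import Vale.Agent.P286E75.Abs
import Vale.Agent.P286E75.Lie
import Vale.Agent.P286E75.Cas
import Vale.Agent.P286EL.Pd2

/-!
# The endomorphisms of the generator and the invariant classes
-/

set_option linter.all false

namespace Vale.Agent.P286E75

open CategoryTheory Vale.Agent.P286 Vale.Agent.P286.St Vale.Agent.P286.H847 Vale.Agent.P286E
  Vale.Agent.P286.H710 Vale.Agent.P286EX Vale.Agent.P286ES
open Vale.Agent.P286EK (DGA DD TD CZ RM TwA Tw)

noncomputable section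

/-- Finite families. -/
abbrev piG (M : GD) (n : ℕ) : GD :=
  ⟨Fin n → M.V, M.d.compLeft (Fin n), fun x => funext fun k => M.dd (x k),
    fun m => Submodule.pi Set.univ fun _ => M.gr m, fun m x hx k hk => M.dgr m _ (hx k hk)⟩

theorem prj_nat {M N : GD} (P : Prj M) (Q : Prj N) (f : M.V →ₗ[ℂ] N.V)
    (hf : ∀ m, ∀ x ∈ M.gr m, f x ∈ N.gr m) (n : ℤ) (x : M.V) : f (P.P n x) = Q.P n (f x) := by
  induction x using Prj.ind P.sup with
  | zero => simp
  | hom m x hx =>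
    by_cases e : m = n
    · subst e
      rw [P.eq m _ hx, Q.eq m _ (hf m x hx)]
    · rw [P.ne m n e _ hx, Q.ne m n e _ (hf m x hx), map_zero]
  | add x y hx hy => rw [map_add, map_add, map_add, map_add, hx, hy]

variable {I : Type} [SmallCategory I] {D : CD I} {G : Grp} {K : GK G} {xd : XD D} {s : ℂ}
  {U : Rep K} (P : PD0 K xd s U) (i : I)

/-- The generators. -/
abbrev vk (k : Fin U.n) : (P.P.K (Zo xd i)).M.V := P.e (Zo xd i) (∅, 0, k)

/-- The family is invariant under the Lie algebra. -/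
def LI (p : Fin U.n → (P.P.K (Zo xd i)).M.V) : Prop :=
  ∀ a k, nat xd P.P i a (p k) = ∑ j, U.dr a j k • p j

/-- The algebra modulo the equation is the space of the invariant families. -/
structure U0 : Prop where
  ker : ∀ x, (∀ k, P.ra (Zo xd i) x (vk P i k) = 0) → ∃ c, x = (P.T.F i).x * c
  sur : ∀ p, LI P i p → ∃ x, ∀ k, P.ra (Zo xd i) x (vk P i k) = p k
  reg : ∀ c, (P.T.F i).x * c = 0 → c = 0

/-- The evaluation at a generator. -/
def ev0 (k : Fin U.n) : (P.A.A i).R →ₗ[ℂ] (P.P.K (Zo xd i)).M.V where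
  toFun x := P.ra (Zo xd i) x (vk P i k)
  map_add' x y := LinearMap.congr_fun (map_add (P.ra (Zo xd i)) x y) _
  map_smul' c x := LinearMap.congr_fun (map_smul (P.ra (Zo xd i)) c x) _

theorem vk_gr (k : Fin U.n) : vk P i k ∈ (P.P.K (Zo xd i)).M.gr 0 := by
  simpa using P.e_gr (Zo xd i) ∅ (0, k)

theorem ev0_gr (k : Fin U.n) (m : ℤ) (x : (P.A.A i).R) (hx : x ∈ (P.A.A i).gr m) :
    ev0 P i k x ∈ (P.P.K (Zo xd i)).M.gr m := by
  have h := P.ra_gr (Zo xd i) 0 m _ x (vk_gr P i k) hx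
  rwa [zero_add] at h

variable {P i}

theorem U0.sur' (h : U0 P i) (m : ℤ) (p : Fin U.n → (P.P.K (Zo xd i)).M.V)
    (hp : ∀ k, p k ∈ (P.P.K (Zo xd i)).M.gr m) (hl : LI P i p) :
    ∃ x ∈ (P.A.A i).gr m, ∀ k, P.ra (Zo xd i) x (vk P i k) = p k := by
  obtain ⟨x, hx⟩ := h.sur p hl
  obtain ⟨Q⟩ := Prj.nonempty (M := (P.A.A i).G) (P.A.A i).int
  obtain ⟨Q'⟩ := Prj.nonempty (P.int (Zo xd i))
  exact ⟨Q.P m x, Q.mem m x, fun k => (prj_nat Q Q' (ev0 P i k) (ev0_gr P i k) m x).trans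
    ((congrArg (Q'.P m) (hx k)).trans (Q'.eq m _ (hp k)))⟩

theorem li_of_eqv {p : Fin U.n → Fin 2 → (P.P.K (Zo xd i)).M.V}
    (h : ∀ k, eqv xd U P.cH.fa i p k = 0) (l : Fin 2) : LI P i fun k => p k l := fun a k => by
  have e := congrFun (nat_of_eqv xd U P.cH i p h a k) l
  exact ((congrArg (_ + ·) (P.clie (Zo xd i) a (p k) l)).symm.trans e).trans
    (Finset.sum_apply l _ _)

variable (P i) in
/-- The evaluation at the generators of the cone. -/
def evc : (TwA (P.T.F i)).R →ₗ[ℂ] (Fin U.n → Fin 2 → (P.P.K (Zo xd i)).M.V) where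
  toFun a k := P.cra (Zo xd i) a (P.ce _ (∅, 0, k, true))
  map_add' x y := funext fun k => LinearMap.congr_fun (map_add (P.cra (Zo xd i)) x y) _
  map_smul' c x := funext fun k => LinearMap.congr_fun (map_smul (P.cra (Zo xd i)) c x) _

theorem evc_apply (a : (TwA (P.T.F i)).R) (k : Fin U.n) (l : Fin 2) :
    evc P i a k l = ev0 P i k (TwA.m a 0 l) :=
  (congrArg (fun v => P.cra (Zo xd i) a v l) (P.ce_t (Zo xd i) ∅ 0 k)).trans
    (P.cra_v (Zo xd i) a (vk P i k) l)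

theorem F_vk (k : Fin U.n) : P.ra (Zo xd i) (P.T.F i).x (vk P i k) = 0 := by
  have h := P.F_e (Zo xd i) 0 k
  rw [show {p | ∃ m' : Fin 4 →₀ ℕ, ∑ l, m' l + 2 ≤ ∑ l, (0 : Fin 4 →₀ ℕ) l ∧
      p = P.e (Zo xd i) (∅, m', k)} = ∅ from Set.eq_empty_of_forall_notMem fun _ ⟨_, h, _⟩ => by
        simp at h, Submodule.span_empty, Submodule.mem_bot] at h
  simpa using h

theorem sg_vk (k : Fin U.n) : P.sg (Zo xd i) (vk P i k) = vk P i k := by
  simpa using P.sg_gr (Zo xd i) 0 _ (vk_gr P i k)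

theorem ev0_d (x : (P.A.A i).R) (k : Fin U.n) :
    ev0 P i k ((P.A.A i).d x) = (P.P.K (Zo xd i)).M.d (ev0 P i k x) :=
  ((P.ra_d (Zo xd i) x (vk P i k)).trans ((congrArg₂ (· + ·)
    ((congrArg _ (P.d_e0 _ 0 k)).trans (map_zero _)) (congrArg _ (sg_vk k))).trans
      (zero_add _))).symm

theorem ev0_mul (x y : (P.A.A i).R) (k : Fin U.n) :
    ev0 P i k (x * y) = P.ra (Zo xd i) y (ev0 P i k x) := P.ra_mul (Zo xd i) x y _

theorem ev0_F (x : (P.A.A i).R) (k : Fin U.n) : ev0 P i k ((P.T.F i).x * x) = 0 :=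
  (ev0_mul _ x k).trans ((congrArg _ (F_vk k)).trans (map_zero _))

theorem ev0_sg (x : (P.A.A i).R) (k : Fin U.n) :
    ev0 P i k ((P.A.A i).sg x) = P.sg _ (ev0 P i k x) :=
  (((P.rho (Zo xd i)).sg_ra x (vk P i k)).trans (congrArg _ (sg_vk k))).symm

/-- The data of the comparison. -/
def U0.cmp (h : U0 P i) : Cmp (P.T.F i) (piG (P.cK (Zo xd i)).M U.n)
    fun p => ∀ k, eqv xd U P.cH.fa i p k = 0 where
  ev := evc P i
  ev_d a := funext fun k => two_ext
    (by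
      refine (evc_apply _ k 0).trans (Eq.trans ?_ (P.cd0 _ (evc P i a k)).symm)
      rw [TwA.d00, evc_apply, map_add, ev0_F, add_zero, ev0_d])
    (by
      refine (evc_apply _ k 1).trans (Eq.trans ?_ (P.cd1 _ (evc P i a k)).symm)
      rw [TwA.d01, evc_apply, evc_apply, map_sub, map_add, ev0_F, add_zero, ev0_mul, ev0_sg,
        ev0_d])
  ev_low c0 c1 := funext fun k => two_ext
    ((evc_apply _ k 0).trans (map_zero (ev0 P i k)))
    ((evc_apply _ k 1).trans (map_zero (ev0 P i k)))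
  ker a ha := ⟨h.ker _ fun k => (evc_apply a k 0).symm.trans (congrFun (congrFun ha k) 0),
    h.ker _ fun k => (evc_apply a k 1).symm.trans (congrFun (congrFun ha k) 1)⟩
  sur n p hp hE := by
    obtain ⟨x, hx, ex⟩ := h.sur' n (fun k => p k 0)
      (fun k => ((P.cmem _ n (p k)).1 (hp k trivial)).1) (li_of_eqv hE 0)
    obtain ⟨y, hy, ey⟩ := h.sur' (n - 1) (fun k => p k 1)
      (fun k => ((P.cmem _ n (p k)).1 (hp k trivial)).2) (li_of_eqv hE 1)
    exact ⟨TwA.of _ !![x, y; 0, 0], (TwA.mem4 n _).2 ⟨hx, hy, zero_mem _, zero_mem _⟩,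
      funext fun k => two_ext ((evc_apply _ k 0).trans (ex k)) ((evc_apply _ k 1).trans (ey k))⟩
  reg := h.reg

theorem eqv_zero {F : FA (QS D G s)} (k : Fin U.n) : eqv xd U F i 0 k = 0 := by
  simp [eqv]

/-- **Injectivity.** -/
theorem unInj (h : ∀ i, U0 P i) : P.UnInj := fun i m a ha p hp hE e =>
  (h i).cmp.inj ha (p := p) (fun k _ => hp k) hE (funext e)

/-- **Surjectivity.** -/
theorem unSur (h : ∀ i, U0 P i) : P.UnSur := fun i m p hp hE => by
  obtain ⟨a, ha, e⟩ := (h i).cmp.onto (n := m) (p := p)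
    ⟨fun k _ => (hp k).1, funext fun k => (hp k).2⟩ hE
  exact ⟨a, ha, 0, fun _ => zero_mem _, fun k => eqv_zero (F := P.cH.fa) k, fun k =>
    (map_zero _).trans (sub_eq_zero.2 (congrFun e k).symm).symm⟩

variable (P i) in
/-- The algebra as the space of invariants of a locally finite module. -/
structure UB : Type 1 where
  B : Type
  [grp : AddCommGroup B]
  [mod : Module ℂ B]
  L : Fin 3 → Module.End ℂ B
  vec : Vec L L
  lf : LF L
  io : (P.A.A i).R →ₗ[ℂ] B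
  io_inj : Function.Injective io
  io_L : ∀ a x, L a (io x) = 0
  io_sur : ∀ b, (∀ a, L a b = 0) → ∃ x, io x = b
  fm : Module.End ℂ B
  fm_inj : Function.Injective fm
  fm_L : ∀ a b, L a (fm b) = fm (L a b)
  io_F : ∀ x, io ((P.T.F i).x * x) = fm (io x)
  pi : B →ₗ[ℂ] (Fin U.n → (P.P.K (Zo xd i)).M.V)
  pi_sur : Function.Surjective pi
  pi_ker : ∀ b, pi b = 0 ↔ ∃ c, fm c = b
  pi_io : ∀ x k, pi (io x) k = P.ra (Zo xd i) x (vk P i k)
  pi_L : ∀ b, LI P i (pi b) → ∀ a, pi (L a b) = 0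

attribute [instance] UB.grp UB.mod

theorem UB.u0 (h : UB P i) : U0 P i where
  ker x hx := by
    obtain ⟨c, hc⟩ := (h.pi_ker _).1 (funext fun k => (h.pi_io x k).trans (hx k))
    obtain ⟨y, rfl⟩ := h.io_sur c fun a =>
      h.fm_inj (by rw [← h.fm_L, hc, h.io_L, map_zero])
    exact ⟨y, h.io_inj (hc.symm.trans (h.io_F y).symm)⟩
  sur p hp := by
    obtain ⟨b, rfl⟩ := h.pi_sur p
    obtain ⟨y, hy, e⟩ := inv_lift h.vec h.lf (LinearMap.ker h.pi) (fun a x hx => by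
      obtain ⟨c, rfl⟩ := (h.pi_ker x).1 hx
      exact (h.pi_ker _).2 ⟨_, (h.fm_L a c).symm⟩) (h.pi_L b hp)
    obtain ⟨x, rfl⟩ := h.io_sur y e
    rw [LinearMap.mem_ker, map_sub, sub_eq_zero] at hy
    exact ⟨x, fun k => (h.pi_io x k).symm.trans (congrFun hy k)⟩
  reg c hc := h.io_inj (h.fm_inj (by rw [← h.io_F, hc, map_zero, map_zero]))

end

end Vale.Agent.P286E75
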